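import Vale.Agent.P157.Full.Sphere.Statements
import Vale.Agent.P157.Parisi.Sphere.Perturb.Basic

/-!
The Hamiltonian as a function on the whole space, and crude bounds on it and its derivative in the
unit ball of the sup norm.
-/

noncomputable section

open MeasureTheory ProbabilityTheory
open scoped BigOperators

namespace Vale.Agent.P157.Parisi.Full.Spherical

open Sphere (Pts Conf)
open Parisi.Perturb (absJ)

variable {N L : ℕ} {f : ℝ → ℝ} {A s : ℝ} {x : Fin L → ℝ}

/-- The coefficient of a coordinate of the perturbation. -/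
def pertCoef (s : ℝ) (x : Fin L → ℝ) (d : Dis N L) (c : PertIdx N L) : ℝ :=
  d.2.2 c * (s * x c.1 * (1 / 2) ^ (c.1.val + 1))

/-- The Hamiltonian on the whole space. -/
def ham (f : ℝ → ℝ) (s : ℝ) (x : Fin L → ℝ) (d : Dis N L) (v : Fin N → ℝ) : ℝ :=
  (∑ a ∈ Finset.range d.1, f (dot (d.2.1 a) v)) + ∑ c, pertCoef s x d c * ∏ i, v (c.2 i)

/-- The total absolute size of the patterns in use. -/
def absS (d : Dis N L) : ℝ := ∑ a ∈ Finset.range d.1, ∑ i, |d.2.1 a i|

/-- A bound for the derivative. -/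
def gradBd (A s : ℝ) (d : Dis N L) : ℝ := A * absS d + 2 * |s| * absJ d.2.2

/-- A bound for the Lipschitz constant of the derivative. -/
def hessBd (A s : ℝ) (d : Dis N L) : ℝ := A * absS d ^ 2 + 4 * |s| * absJ d.2.2

lemma ham_unitVec {P : Pts N} (d : Dis N L) (σ : Conf P) :
    ham f s x d (Sphere.unitVec σ) = Sphere.totalH f s x d σ := by
  simp only [ham, Sphere.totalH, Sphere.pertH, pertCoef]
  exact congrArg _ (Finset.sum_congr rfl fun c _ => by ring)

lemma contDiff_ham (hs : Smooth f A) (d : Dis N L) : ContDiff ℝ 1 (ham f s x d) := by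
  have hf : ContDiff ℝ 1 f := contDiff_one_iff_deriv.2 ⟨hs.d0, hs.d1.continuous⟩
  unfold ham dot
  fun_prop

lemma fderiv_ham (hs : Smooth f A) (d : Dis N L) (v w : Fin N → ℝ) :
    fderiv ℝ (ham f s x d) v w =
      (∑ a ∈ Finset.range d.1, deriv f (dot (d.2.1 a) v) * dot (d.2.1 a) w) +
        ∑ c, pertCoef s x d c *
          ∑ i, w (c.2 i) * ∏ j ∈ Finset.univ.erase i, v (c.2 j) := by
  have hd : ∀ a, HasFDerivAt (fun v : Fin N → ℝ => dot (d.2.1 a) v)
      (∑ i, d.2.1 a i • ContinuousLinearMap.proj (R := ℝ) i) v := fun a =>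
    HasFDerivAt.fun_sum fun i _ => (hasFDerivAt_apply i v).const_mul _
  have h : HasFDerivAt (ham f s x d) _ v :=
    (HasFDerivAt.fun_sum (u := Finset.range d.1) fun a _ =>
      (hs.d0 _).hasDerivAt.comp_hasFDerivAt v (hd a)).add
    (HasFDerivAt.fun_sum (u := Finset.univ) fun (c : PertIdx N L) _ =>
      (HasFDerivAt.finsetProd (u := Finset.univ) fun i _ =>
        hasFDerivAt_apply (c.2 i) v).const_mul (pertCoef s x d c))
  rw [h.fderiv]
  simp [dot, mul_comm]

lemma abs_apply_le {v : Fin N → ℝ} {δ : ℝ} (hv : ‖v‖ ≤ δ) (i : Fin N) : |v i| ≤ δ :=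
  (norm_le_pi_norm v i).trans hv

lemma abs_dot_le_norm (g v : Fin N → ℝ) : |dot g v| ≤ (∑ i, |g i|) * ‖v‖ := by
  rw [Finset.sum_mul]
  refine (Finset.abs_sum_le_sum_abs _ _).trans (Finset.sum_le_sum fun i _ => ?_)
  rw [abs_mul]
  exact mul_le_mul_of_nonneg_left (abs_apply_le le_rfl i) (abs_nonneg _)

lemma abs_prod_sub_le {ι : Type*} (t : Finset ι) {a b : ι → ℝ} {δ : ℝ} (ha : ∀ i, |a i| ≤ 1)
    (hb : ∀ i, |b i| ≤ 1) (h : ∀ i, |a i - b i| ≤ δ) :
    |∏ i ∈ t, a i - ∏ i ∈ t, b i| ≤ t.card * δ := by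
  classical
  induction t using Finset.induction with
  | empty => simp
  | insert i t hi ih =>
    rw [Finset.prod_insert hi, Finset.prod_insert hi, Finset.card_insert_of_notMem hi]
    have hp : |∏ j ∈ t, a j| ≤ 1 := by
      rw [Finset.abs_prod]
      exact Finset.prod_le_one (fun j _ => abs_nonneg _) fun j _ => ha j
    rw [show a i * ∏ j ∈ t, a j - b i * ∏ j ∈ t, b j = (a i - b i) * ∏ j ∈ t, a j +
      b i * (∏ j ∈ t, a j - ∏ j ∈ t, b j) by ring]
    refine (abs_add_le _ _).trans ?_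
    rw [abs_mul, abs_mul]
    push_cast
    nlinarith [abs_nonneg (a i - b i), abs_nonneg (∏ j ∈ t, a j - ∏ j ∈ t, b j),
      mul_le_mul (h i) hp (abs_nonneg _) ((abs_nonneg _).trans (h i)),
      mul_le_mul (hb i) ih (abs_nonneg _) zero_le_one]

lemma sq_le_two_pow : ∀ n : ℕ, n ^ 2 ≤ 2 * 2 ^ n
  | 0 => by norm_num
  | 1 => by norm_num
  | 2 => by norm_num
  | 3 => by norm_num
  | n + 4 => by
    have h := sq_le_two_pow (n + 3)
    have e : 2 * 2 ^ (n + 4) = 2 * (2 * 2 ^ (n + 3)) := by ring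
    rw [e]
    calc (n + 4) ^ 2 ≤ 2 * (n + 3) ^ 2 := by ring_nf; omega
      _ ≤ _ := Nat.mul_le_mul_left 2 h

lemma abs_pertCoef_le (hx : ∀ i, |x i| ≤ 2) (d : Dis N L) (c : PertIdx N L) :
    ((c.1.val + 1 : ℕ) : ℝ) * |pertCoef s x d c| ≤ 2 * |s| * |d.2.2 c| ∧
      ((c.1.val + 1 : ℕ) : ℝ) ^ 2 * |pertCoef s x d c| ≤ 4 * |s| * |d.2.2 c| := by
  set n := c.1.val + 1
  have e : |pertCoef s x d c| ≤ 2 * |s| * |d.2.2 c| * (1 / 2) ^ n := by
    rw [pertCoef, abs_mul, abs_mul, abs_mul, abs_pow, abs_of_pos (one_half_pos (α := ℝ))]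
    nlinarith [mul_le_mul_of_nonneg_left (hx c.1)
      (mul_nonneg (mul_nonneg (abs_nonneg (d.2.2 c)) (abs_nonneg s))
        (by positivity : (0 : ℝ) ≤ (1 / 2) ^ n))]
  have hu : 0 ≤ 2 * |s| * |d.2.2 c| := by positivity
  have h1 : (n : ℝ) * (1 / 2) ^ n ≤ 1 := by
    rw [div_pow, one_pow, mul_one_div, div_le_one (by positivity)]
    exact_mod_cast n.lt_two_pow_self.le
  have h2 : (n : ℝ) ^ 2 * (1 / 2) ^ n ≤ 2 := by
    rw [div_pow, one_pow, mul_one_div, div_le_iff₀ (by positivity)]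
    exact_mod_cast sq_le_two_pow n
  constructor
  · nlinarith [mul_le_mul_of_nonneg_left e (Nat.cast_nonneg (α := ℝ) n),
      mul_le_mul_of_nonneg_left h1 hu]
  · nlinarith [mul_le_mul_of_nonneg_left e (sq_nonneg (n : ℝ)), mul_le_mul_of_nonneg_left h2 hu]

variable (hs : Smooth f A) (hx : ∀ i, |x i| ≤ 2)

include hs in
lemma gradBd_nonneg (d : Dis N L) : 0 ≤ gradBd A s d := by
  have hA := (abs_nonneg _).trans (hs.b0 0)
  unfold gradBd absS absJ
  positivity

include hs in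
lemma hessBd_nonneg (d : Dis N L) : 0 ≤ hessBd A s d := by
  have hA := (abs_nonneg _).trans (hs.b0 0)
  unfold hessBd absJ
  positivity

include hs hx in
lemma abs_fderiv_ham_le (d : Dis N L) {v : Fin N → ℝ} (hv : ‖v‖ ≤ 1) (w : Fin N → ℝ) :
    |fderiv ℝ (ham f s x d) v w| ≤ gradBd A s d * ‖w‖ := by
  have hA := (abs_nonneg _).trans (hs.b0 0)
  rw [fderiv_ham hs, gradBd, absS, absJ, add_mul]
  refine (abs_add_le _ _).trans (add_le_add ?_ ?_)
  · rw [Finset.mul_sum, Finset.sum_mul]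
    refine (Finset.abs_sum_le_sum_abs _ _).trans (Finset.sum_le_sum fun a _ => ?_)
    rw [abs_mul, mul_assoc]
    exact mul_le_mul (hs.b1 _) (abs_dot_le_norm _ _) (abs_nonneg _) hA
  · rw [Finset.mul_sum, Finset.sum_mul]
    refine (Finset.abs_sum_le_sum_abs _ _).trans (Finset.sum_le_sum fun c _ => ?_)
    rw [abs_mul]
    have h : |∑ i, w (c.2 i) * ∏ j ∈ Finset.univ.erase i, v (c.2 j)| ≤
        ((c.1.val + 1 : ℕ) : ℝ) * ‖w‖ := by
      refine (Finset.abs_sum_le_sum_abs _ _).trans ((Finset.sum_le_sum (g := fun _ => ‖w‖)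
        fun i _ => ?_).trans_eq (by simp))
      rw [abs_mul, Finset.abs_prod]
      exact (mul_le_of_le_one_right (abs_nonneg _) (Finset.prod_le_one (fun j _ => abs_nonneg _)
        fun j _ => abs_apply_le hv _)).trans (abs_apply_le le_rfl _)
    refine (mul_le_mul_of_nonneg_left h (abs_nonneg _)).trans ?_
    rw [← mul_assoc, mul_comm |pertCoef s x d c|]
    exact mul_le_mul_of_nonneg_right (abs_pertCoef_le hx d c).1 (norm_nonneg _)

include hs hx in
lemma abs_fderiv_ham_sub_le (d : Dis N L) {u v : Fin N → ℝ} (hu : ‖u‖ ≤ 1) (hv : ‖v‖ ≤ 1)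
    (w : Fin N → ℝ) :
    |fderiv ℝ (ham f s x d) u w - fderiv ℝ (ham f s x d) v w| ≤
      hessBd A s d * ‖u - v‖ * ‖w‖ := by
  have hA := (abs_nonneg _).trans (hs.b0 0)
  have hlip : ∀ a b, |deriv f a - deriv f b| ≤ A * |a - b| := fun a b => by
    simpa [Real.norm_eq_abs] using Convex.norm_image_sub_le_of_norm_deriv_le (s := Set.univ)
      (C := A) (fun z _ => hs.d1 z) (fun z _ => by simpa [Real.norm_eq_abs] using hs.b2 z)
      convex_univ (Set.mem_univ b) (Set.mem_univ a)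
  rw [fderiv_ham hs, fderiv_ham hs, hessBd, add_sub_add_comm, add_mul, add_mul,
    ← Finset.sum_sub_distrib, ← Finset.sum_sub_distrib]
  refine (abs_add_le _ _).trans (add_le_add ?_ ?_)
  · refine (Finset.abs_sum_le_sum_abs _ _).trans ?_
    have h2 : ∑ a ∈ Finset.range d.1, (∑ i, |d.2.1 a i|) ^ 2 ≤ absS d ^ 2 :=
      Finset.sum_sq_le_sq_sum_of_nonneg fun a _ => Finset.sum_nonneg fun i _ => abs_nonneg _
    refine le_trans (Finset.sum_le_sum fun a _ => ?_) (le_of_eq_of_le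
      (Finset.mul_sum (Finset.range d.1) (fun a => (∑ i, |d.2.1 a i|) ^ 2)
        (A * ‖u - v‖ * ‖w‖)).symm ?_)
    · rw [← sub_mul, abs_mul]
      have e : dot (d.2.1 a) u - dot (d.2.1 a) v = dot (d.2.1 a) (u - v) := by
        simp [dot, mul_sub, Finset.sum_sub_distrib]
      refine (mul_le_mul ((hlip _ _).trans (mul_le_mul_of_nonneg_left
        (e ▸ abs_dot_le_norm _ (u - v)) hA)) (abs_dot_le_norm _ _) (abs_nonneg _)
        (mul_nonneg hA (mul_nonneg (Finset.sum_nonneg fun i _ => abs_nonneg _) (norm_nonneg _)))).trans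
        (le_of_eq ?_)
      ring
    · refine (mul_le_mul_of_nonneg_left h2 (by positivity)).trans (le_of_eq ?_)
      ring
  · rw [absJ, Finset.mul_sum, Finset.sum_mul, Finset.sum_mul]
    refine (Finset.abs_sum_le_sum_abs _ _).trans (Finset.sum_le_sum fun c _ => ?_)
    rw [← mul_sub, ← Finset.sum_sub_distrib, abs_mul]
    have h : |∑ i, (w (c.2 i) * ∏ j ∈ Finset.univ.erase i, u (c.2 j) -
        w (c.2 i) * ∏ j ∈ Finset.univ.erase i, v (c.2 j))| ≤
        ((c.1.val + 1 : ℕ) : ℝ) ^ 2 * (‖u - v‖ * ‖w‖) := by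
      refine (Finset.abs_sum_le_sum_abs _ _).trans ((Finset.sum_le_sum
        (g := fun _ => ((c.1.val + 1 : ℕ) : ℝ) * (‖u - v‖ * ‖w‖)) fun i _ => ?_).trans_eq
          (by simp; ring))
      rw [← mul_sub, abs_mul]
      refine (mul_le_mul (abs_apply_le le_rfl _) ((abs_prod_sub_le _ (fun j => abs_apply_le hu _)
        (fun j => abs_apply_le hv _) (δ := ‖u - v‖) fun j => by
          rw [← Pi.sub_apply]; exact abs_apply_le le_rfl _).trans
        (mul_le_mul_of_nonneg_right (show ((Finset.univ.erase i).card : ℝ) ≤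
          ((c.1.val + 1 : ℕ) : ℝ) from
          Nat.cast_le.2 ((Finset.card_le_univ _).trans_eq (Fintype.card_fin _)))
          (norm_nonneg _))) (abs_nonneg _) (norm_nonneg _)).trans (le_of_eq ?_)
      ring
    refine (mul_le_mul_of_nonneg_left h (abs_nonneg _)).trans ?_
    rw [← mul_assoc, mul_comm |pertCoef s x d c|, mul_assoc _ ‖u - v‖]
    exact mul_le_mul_of_nonneg_right (abs_pertCoef_le hx d c).2 (by positivity)

include hs hx in
lemma abs_ham_sub_le (d : Dis N L) {u v : Fin N → ℝ} (hu : ‖u‖ ≤ 1) (hv : ‖v‖ ≤ 1) :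
    |ham f s x d u - ham f s x d v| ≤ gradBd A s d * ‖u - v‖ :=
  (convex_closedBall (0 : Fin N → ℝ) 1).norm_image_sub_le_of_norm_fderiv_le
    (fun z _ => (contDiff_ham hs d).differentiable one_ne_zero z)
    (fun z hz => ContinuousLinearMap.opNorm_le_bound _ (gradBd_nonneg hs d) fun w =>
      abs_fderiv_ham_le hs hx d (by simpa using hz) w)
    (by simpa using hv) (by simpa using hu)

end Vale.Agent.P157.Parisi.Full.Spherical
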