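import Vale.Agent.P157.Full.Sphere.ByParts.Ham
import Vale.Agent.P157.Full.Sphere.Rot

/-!
The identity of the sphere at a fixed disorder, moved to a fine discretisation.
-/

noncomputable section

open MeasureTheory ProbabilityTheory Filter
open scoped BigOperators

namespace Vale.Agent.P157.Parisi.Full.Spherical

open Sphere (Pts Conf)
open Sphere.Up (isProb_sphere ae_sphere)
open Sphere.Perturb (abs_overlap_le)

variable {N L : ℕ} {f : ℝ → ℝ} {A s tol : ℝ} {x : Fin L → ℝ}

/-- The integrand: `N R ^ (k + 1)` minus `R ^ k` times the tangential derivative. -/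
def ell (f : ℝ → ℝ) (s : ℝ) (x : Fin L → ℝ) (d : Dis N L) (k : ℕ) (y v : Fin N → ℝ) : ℝ :=
  N * dot v y ^ (k + 1) - dot v y ^ k *
    (fderiv ℝ (ham f s x d) v y - dot v y * fderiv ℝ (ham f s x d) v v)

/-- A bound for the Lipschitz constant of the integrand. -/
def ellLip (A s : ℝ) (d : Dis N L) (k : ℕ) : ℝ :=
  ((k : ℝ) + 1) * N ^ 2 + 2 * k * N * gradBd A s d + 2 * hessBd A s d +
    ((N : ℝ) + 1) * gradBd A s d

/-- A bound for the integrand. -/
def ellBd (A s : ℝ) (d : Dis N L) : ℝ := N + 2 * gradBd A s d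

/-- The bound on the discretised identity. -/
def pointBd (A s tol : ℝ) (d : Dis N L) (k : ℕ) : ℝ :=
  6 * ((k : ℝ) + 1) +
    2 * tol * (3 * ellLip A s d k + 2 * ellBd A s d * gradBd A s d + ellBd A s d)

lemma abs_dot_le_one {u v : Fin N → ℝ} (hu : ∑ i, u i ^ 2 ≤ 1) (hv : ∑ i, v i ^ 2 ≤ 1) :
    |dot u v| ≤ 1 := by
  rw [← sq_le_one_iff₀ (abs_nonneg _), sq_abs]
  exact (Finset.sum_mul_sq_le_sq_mul_sq _ _ _).trans
    (mul_le_one₀ hu (Finset.sum_nonneg fun i _ => sq_nonneg (v i)) hv)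

lemma abs_pow_sub_le {a b : ℝ} (ha : |a| ≤ 1) (hb : |b| ≤ 1) (n : ℕ) :
    |a ^ n - b ^ n| ≤ n * |a - b| := by
  simpa using abs_prod_sub_le (Finset.range n) (a := fun _ => a) (b := fun _ => b) (fun _ => ha)
    (fun _ => hb) (fun _ => le_refl |a - b|)

variable (hs : Smooth f A) (hx : ∀ i, |x i| ≤ 2)

include hs hx in
lemma abs_ell_le (d : Dis N L) (k : ℕ) {y v : Fin N → ℝ} (hy : ∑ i, y i ^ 2 ≤ 1)
    (hv : ∑ i, v i ^ 2 ≤ 1) : |ell f s x d k y v| ≤ ellBd A s d := by
  have hR := abs_dot_le_one hv hy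
  have hG := gradBd_nonneg (s := s) hs d
  have h1 := (abs_fderiv_ham_le (s := s) hs hx d (norm_le_one_of_sum_sq hv) y).trans
    (mul_le_of_le_one_right hG (norm_le_one_of_sum_sq hy))
  have h2 := (abs_fderiv_ham_le (s := s) hs hx d (norm_le_one_of_sum_sq hv) v).trans
    (mul_le_of_le_one_right hG (norm_le_one_of_sum_sq hv))
  have hp : ∀ n, |dot v y ^ n| ≤ 1 := fun n => by
    rw [abs_pow]; exact pow_le_one₀ (abs_nonneg _) hR
  refine (abs_sub _ _).trans ?_
  rw [abs_mul, abs_mul, Nat.abs_cast, ellBd]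
  refine add_le_add (mul_le_of_le_one_right (Nat.cast_nonneg _) (hp _))
    ((mul_le_of_le_one_left (abs_nonneg _) (hp _)).trans ((abs_sub _ _).trans ?_))
  rw [abs_mul]
  linarith [mul_le_of_le_one_left (abs_nonneg (fderiv ℝ (ham f s x d) v v)) hR]

include hs hx in
lemma abs_ell_sub_le (d : Dis N L) (k : ℕ) {y u v : Fin N → ℝ} (hy : ∑ i, y i ^ 2 ≤ 1)
    (hu : ∑ i, u i ^ 2 ≤ 1) (hv : ∑ i, v i ^ 2 ≤ 1) :
    |ell f s x d k y u - ell f s x d k y v| ≤ ellLip A s d k * ‖u - v‖ := by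
  set G := gradBd A s d
  set K := hessBd A s d
  set δ := ‖u - v‖
  set D := fderiv ℝ (ham f s x d) with hD
  have hG : 0 ≤ G := gradBd_nonneg hs d
  have hK : 0 ≤ K := hessBd_nonneg hs d
  have hδ : 0 ≤ δ := norm_nonneg _
  have hu' := norm_le_one_of_sum_sq hu
  have hv' := norm_le_one_of_sum_sq hv
  have hy' := norm_le_one_of_sum_sq hy
  have hRu := abs_dot_le_one hu hy
  have hRv := abs_dot_le_one hv hy
  have hR : |dot u y - dot v y| ≤ N * δ := by
    have e : dot u y - dot v y = dot y (u - v) := by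
      simp [dot, mul_sub, Finset.sum_sub_distrib, mul_comm]
    rw [e]
    refine (abs_dot_le_norm _ _).trans (mul_le_mul_of_nonneg_right ?_ hδ)
    exact (Finset.sum_le_sum fun i _ => abs_le_one_of_sum_sq hy i).trans_eq (by simp)
  have h1 : |D u y - D v y| ≤ K * δ := (abs_fderiv_ham_sub_le hs hx d hu' hv' y).trans
    (mul_le_of_le_one_right (mul_nonneg hK hδ) hy')
  have h2 : |D u u - D v v| ≤ K * δ + G * δ := by
    have e : D u u - D v v = (D u u - D v u) + D v (u - v) := by rw [map_sub]; ring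
    rw [e]
    exact (abs_add_le _ _).trans (add_le_add ((abs_fderiv_ham_sub_le hs hx d hu' hv' u).trans
      (mul_le_of_le_one_right (mul_nonneg hK hδ) hu')) (abs_fderiv_ham_le hs hx d hv' _))
  have hDu : |D u u| ≤ G := (abs_fderiv_ham_le hs hx d hu' u).trans (mul_le_of_le_one_right hG hu')
  have hDy : |D u y| ≤ G := (abs_fderiv_ham_le hs hx d hu' y).trans (mul_le_of_le_one_right hG hy')
  set T : (Fin N → ℝ) → ℝ := fun w => D w y - dot w y * D w w with hT
  have hTu : |T u| ≤ 2 * G := by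
    refine (abs_sub _ _).trans ?_
    rw [abs_mul]
    linarith [mul_le_of_le_one_left (abs_nonneg (D u u)) hRu]
  have hTd : |T u - T v| ≤ δ * (2 * K + ((N : ℝ) + 1) * G) := by
    have e : T u - T v = (D u y - D v y) -
        ((dot u y - dot v y) * D u u + dot v y * (D u u - D v v)) := by simp only [hT]; ring
    rw [e]
    refine (abs_sub _ _).trans ?_
    have h3 : |(dot u y - dot v y) * D u u| ≤ N * δ * G := by
      rw [abs_mul]; exact mul_le_mul hR hDu (abs_nonneg _) (by positivity)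
    have h4 : |dot v y * (D u u - D v v)| ≤ K * δ + G * δ := by
      rw [abs_mul]; exact (mul_le_of_le_one_left (abs_nonneg _) hRv).trans h2
    linarith [abs_add_le ((dot u y - dot v y) * D u u) (dot v y * (D u u - D v v))]
  have hp : ∀ n : ℕ, |dot u y ^ n - dot v y ^ n| ≤ n * (N * δ) := fun n =>
    (abs_pow_sub_le hRu hRv n).trans (mul_le_mul_of_nonneg_left hR (Nat.cast_nonneg _))
  show |(N * dot u y ^ (k + 1) - dot u y ^ k * T u) - (N * dot v y ^ (k + 1) - dot v y ^ k * T v)| ≤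
    ellLip A s d k * δ
  have e : (N * dot u y ^ (k + 1) - dot u y ^ k * T u) - (N * dot v y ^ (k + 1) - dot v y ^ k * T v) =
      N * (dot u y ^ (k + 1) - dot v y ^ (k + 1)) -
        ((dot u y ^ k - dot v y ^ k) * T u + dot v y ^ k * (T u - T v)) := by ring
  rw [e, ellLip]
  refine (abs_sub _ _).trans ?_
  have b1 : |(N : ℝ) * (dot u y ^ (k + 1) - dot v y ^ (k + 1))| ≤
      N * (((k + 1 : ℕ) : ℝ) * (N * δ)) := by
    rw [abs_mul, Nat.abs_cast]
    exact mul_le_mul_of_nonneg_left (hp _) (Nat.cast_nonneg _)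
  have b2 : |(dot u y ^ k - dot v y ^ k) * T u| ≤ k * (N * δ) * (2 * G) := by
    rw [abs_mul]; exact mul_le_mul (hp k) hTu (abs_nonneg _) (by positivity)
  have b3 : |dot v y ^ k * (T u - T v)| ≤ δ * (2 * K + ((N : ℝ) + 1) * G) := by
    rw [abs_mul, abs_pow]
    exact (mul_le_of_le_one_left (abs_nonneg _) (pow_le_one₀ (abs_nonneg _) hRv)).trans hTd
  push_cast at b1
  linarith [abs_add_le ((dot u y ^ k - dot v y ^ k) * T u) (dot v y ^ k * (T u - T v))]

include hs in
lemma continuous_ell (d : Dis N L) (k : ℕ) (y : Fin N → ℝ) : Continuous (ell f s x d k y) := by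
  have hc := (contDiff_ham (s := s) (x := x) hs d).continuous_fderiv one_ne_zero
  unfold ell dot
  fun_prop

include hs in
/-- The identity of the sphere applied to `R ^ k exp H`. -/
lemma abs_integral_ell_le (hN : 0 < N) (d : Dis N L) (k : ℕ) {y : Fin N → ℝ}
    (hy : ∑ i, y i ^ 2 = 1) :
    |∫ u, ell f s x d k y u * Real.exp (ham f s x d u) ∂unitLaw N| ≤
      ((k : ℝ) + 1) * ∫ u, Real.exp (ham f s x d u) ∂unitLaw N := by
  have := isProb_unitLaw hN
  have hH := contDiff_ham (s := s) (x := x) hs d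
  have hc := hH.continuous_fderiv one_ne_zero
  have hHc := hH.continuous
  set E : (Fin N → ℝ) → ℝ := fun u => Real.exp (ham f s x d u)
  have hψ : ContDiff ℝ 1 fun u : Fin N → ℝ => dot u y ^ k * E u := by
    unfold dot; fun_prop
  have h := rot_identity hN hψ y
  have hd : ∀ u w, fderiv ℝ (fun u : Fin N → ℝ => dot u y ^ k * E u) u w =
      E u * ((k : ℝ) * dot u y ^ (k - 1) * dot w y + dot u y ^ k * fderiv ℝ (ham f s x d) u w) := by
    intro u w
    have h1 : HasFDerivAt (fun v : Fin N → ℝ => dot v y)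
        (∑ i, y i • ContinuousLinearMap.proj (R := ℝ) i) u :=
      HasFDerivAt.fun_sum fun i _ => (hasFDerivAt_apply i u).mul_const _
    rw [((h1.pow k).fun_mul ((hH.differentiable one_ne_zero u).hasFDerivAt.exp)).fderiv]
    simp [E, dot, mul_comm]
    ring
  simp only [hd] at h
  set r : (Fin N → ℝ) → ℝ := fun u =>
    dot u y ^ (k + 1) + (k : ℝ) * dot u y ^ (k - 1) * (1 - dot u y ^ 2)
  have hyy : dot y y = 1 := by simp only [dot, ← sq, hy]
  have hi1 : Integrable (fun u => dot u y * (dot u y ^ k * E u)) (unitLaw N) :=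
    integrable_unitLaw hN (by unfold dot; fun_prop)
  have hi2 : Integrable (fun u => E u * ((k : ℝ) * dot u y ^ (k - 1) * dot y y +
      dot u y ^ k * fderiv ℝ (ham f s x d) u y) - dot u y *
      (E u * ((k : ℝ) * dot u y ^ (k - 1) * dot u y + dot u y ^ k * fderiv ℝ (ham f s x d) u u)))
      (unitLaw N) := integrable_unitLaw hN (by unfold dot; fun_prop)
  have hi3 : Integrable (fun u => r u * E u) (unitLaw N) :=
    integrable_unitLaw hN (by simp only [r]; unfold dot; fun_prop)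
  have key : ∫ u, ell f s x d k y u * E u ∂unitLaw N = ∫ u, r u * E u ∂unitLaw N := by
    have h0 : ∫ u, ((((N : ℝ) - 1) * (dot u y * (dot u y ^ k * E u))) -
        (E u * ((k : ℝ) * dot u y ^ (k - 1) * dot y y +
      dot u y ^ k * fderiv ℝ (ham f s x d) u y) - dot u y *
      (E u * ((k : ℝ) * dot u y ^ (k - 1) * dot u y + dot u y ^ k * fderiv ℝ (ham f s x d) u u))))
        ∂unitLaw N = 0 := by
      rw [integral_sub (hi1.const_mul _) hi2, integral_const_mul, h, sub_self]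
    rw [← sub_eq_zero, ← integral_sub
      (integrable_unitLaw hN ((continuous_ell hs d k y).fun_mul (by fun_prop))) hi3, ← h0]
    refine integral_congr_ae (Eventually.of_forall fun u => ?_)
    simp only [r, ell, hyy]
    ring
  rw [show (fun u => ell f s x d k y u * Real.exp (ham f s x d u)) =
    fun u => ell f s x d k y u * E u from rfl, key, ← integral_const_mul]
  refine (norm_integral_le_integral_norm _).trans (integral_mono_ae hi3.norm
    ((integrable_unitLaw hN (by fun_prop)).const_mul _) ((ae_unitLaw hN).mono fun u hu => ?_))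
  have hR := abs_dot_le_one hu.le hy.le
  show ‖r u * E u‖ ≤ ((k : ℝ) + 1) * E u
  rw [Real.norm_eq_abs, abs_mul, abs_of_pos (Real.exp_pos _ : 0 < E u)]
  refine mul_le_mul_of_nonneg_right ((abs_add_le _ _).trans ?_) (Real.exp_pos _).le
  have h2 : |1 - dot u y ^ 2| ≤ 1 := by
    rw [abs_le]
    constructor <;> nlinarith [sq_nonneg (dot u y), (sq_le_one_iff_abs_le_one _).2 hR]
  rw [abs_pow, abs_mul, abs_mul, abs_pow, Nat.abs_cast, add_comm (k : ℝ)]
  exact add_le_add (pow_le_one₀ (abs_nonneg _) hR) ((mul_le_of_le_one_right (by positivity) h2).trans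
    (mul_le_of_le_one_right (Nat.cast_nonneg _) (pow_le_one₀ (abs_nonneg _) hR)))

include hs hx in
/-- The identity on a discretisation, at a fixed disorder and a fixed second replica. -/
lemma abs_sum_ell_le (hN : 0 < N) {P : Pts N} {π : (Fin N → ℝ) → Fin N → ℝ} (hπ : Measurable π)
    (ht0 : 0 ≤ tol) (ht : tol ≤ 1 / 2)
    (hnear : ∀ᵐ z ∂sphereLaw N,
      Real.sqrt (∑ i, (π z i - z i / Real.sqrt N) ^ 2) ≤ tol ∧ ∃ σ, π z = P.u σ)
    (hcmp : ∀ φ : (Fin N → ℝ) → ℝ, Measurable φ → (∀ v, 0 ≤ φ v) →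
      (1 - tol) * ∫ z, φ (π z) ∂sphereLaw N ≤ (∑ σ, φ (P.u σ)) / P.K ∧
        (∑ σ, φ (P.u σ)) / P.K ≤ (1 + tol) * ∫ z, φ (π z) ∂sphereLaw N)
    (d : Dis N L) (k : ℕ) {y : Fin N → ℝ} (hy : ∑ i, y i ^ 2 = 1) :
    |∑ σ, ell f s x d k y (P.u σ) * Real.exp (ham f s x d (P.u σ))| ≤
      pointBd A s tol d k * ∑ σ, Real.exp (ham f s x d (P.u σ)) := by
  have := isProb_sphere hN
  set μ := sphereLaw N
  set G := gradBd A s d
  set B := ellBd A s d
  set Lp := ellLip A s d k
  have hG : 0 ≤ G := gradBd_nonneg hs d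
  have hK : 0 ≤ hessBd A s d := hessBd_nonneg hs d
  have hB : 0 ≤ B := by unfold B ellBd; positivity
  have hLp : 0 ≤ Lp := by unfold Lp ellLip; positivity
  set E : (Fin N → ℝ) → ℝ := fun v => Real.exp (ham f s x d v)
  set Φ : (Fin N → ℝ) → ℝ := fun v => ell f s x d k y v * E v
  have hEc : Continuous E := (contDiff_ham hs d).continuous.rexp
  have hΦc : Continuous Φ := (continuous_ell hs d k y).mul hEc
  have hsum : 0 ≤ ∑ σ, E (P.u σ) := Finset.sum_nonneg fun σ _ => (Real.exp_pos _).le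
  have hΦb : ∀ v, ∑ i, v i ^ 2 ≤ 1 → |Φ v| ≤ B * E v := fun v hv => by
    simp only [Φ]
    rw [abs_mul, abs_of_pos (Real.exp_pos _ : 0 < E v)]
    exact mul_le_mul_of_nonneg_right (abs_ell_le hs hx d k hy.le hv) (Real.exp_pos _).le
  have hu1 : ∀ σ, ∑ i, P.u σ i ^ 2 ≤ 1 := fun σ => (P.norm_one hN σ).le
  rcases lt_or_ge 1 (G * tol) with hbad | hgood
  · refine (Finset.abs_sum_le_sum_abs _ _).trans ?_
    rw [Finset.mul_sum]
    refine Finset.sum_le_sum fun σ _ => (hΦb _ (hu1 σ)).trans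
      (mul_le_mul_of_nonneg_right ?_ (Real.exp_pos _).le)
    have := mul_le_mul_of_nonneg_left hbad.le hB
    simp only [pointBd]
    nlinarith [mul_nonneg ht0 hLp, mul_nonneg ht0 hB, mul_nonneg (mul_nonneg ht0 hB) hG,
      Nat.cast_nonneg (α := ℝ) k]
  set nv : (Fin N → ℝ) → Fin N → ℝ := fun z i => z i / Real.sqrt N
  have hnvm : Measurable nv := measurable_scaleMap
  have hid : ∀ F : (Fin N → ℝ) → ℝ, Continuous F →
      Integrable (fun z => F (π z)) μ ∧ Integrable (fun z => F (nv z)) μ := fun F hF => by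
    refine ⟨Integrable.of_bound (hF.measurable.comp hπ).aestronglyMeasurable (∑ σ, |F (P.u σ)|)
      (hnear.mono fun z hz => ?_), (integrable_map_measure hF.aestronglyMeasurable
        hnvm.aemeasurable).1 (integrable_unitLaw hN hF)⟩
    obtain ⟨σ, hσ⟩ := hz.2
    rw [Real.norm_eq_abs, hσ]
    exact Finset.single_le_sum (f := fun σ => |F (P.u σ)|) (fun _ _ => abs_nonneg _)
      (Finset.mem_univ σ)
  set W := ∫ z, E (π z) ∂μ
  have hW : W ≤ 2 * ((∑ σ, E (P.u σ)) / P.K) := by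
    have h := (hcmp E hEc.measurable fun v => (Real.exp_pos _).le).1
    have h0 : 0 ≤ W := integral_nonneg fun z => (Real.exp_pos _).le
    nlinarith [mul_le_mul_of_nonneg_right ht h0]
  have hpt : ∀ᵐ z ∂μ, |Φ (π z) - Φ (nv z)| ≤ tol * (3 * Lp + 2 * B * G) * E (π z) ∧
      E (nv z) ≤ 3 * E (π z) ∧ |Φ (π z)| ≤ B * E (π z) := by
    filter_upwards [hnear, ae_sphere hN] with z hz hz'
    obtain ⟨σ, hσ⟩ := hz.2
    have hp : ∑ i, π z i ^ 2 ≤ 1 := by rw [hσ]; exact hu1 σ
    have hn : ∑ i, nv z i ^ 2 ≤ 1 := hz'.2.le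
    have hδ : ‖nv z - π z‖ ≤ tol := (pi_norm_le_iff_of_nonneg ht0).2 fun i => by
      refine le_trans ?_ hz.1
      rw [Real.norm_eq_abs, ← Real.sqrt_sq_eq_abs, Pi.sub_apply, sub_sq_comm]
      exact Real.sqrt_le_sqrt (Finset.single_le_sum
        (f := fun i => (π z i - nv z i) ^ 2) (fun _ _ => sq_nonneg _) (Finset.mem_univ i))
    set η := ham f s x d (nv z) - ham f s x d (π z)
    have hη : |η| ≤ G * tol := (abs_ham_sub_le hs hx d (norm_le_one_of_sum_sq hn)
      (norm_le_one_of_sum_sq hp)).trans (mul_le_mul_of_nonneg_left hδ hG)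
    have he : E (nv z) = Real.exp η * E (π z) := by
      simp only [E, η, ← Real.exp_add, sub_add_cancel]
    have h2 := Real.abs_exp_sub_one_le (hη.trans hgood)
    have hEp : 0 ≤ E (π z) := (Real.exp_pos _).le
    have h3 : E (nv z) ≤ 3 * E (π z) := by
      rw [he]
      refine mul_le_mul_of_nonneg_right ?_ hEp
      linarith [le_abs_self (Real.exp η - 1), hη.trans hgood]
    refine ⟨?_, h3, hΦb _ hp⟩
    have e : Φ (π z) - Φ (nv z) = (ell f s x d k y (π z) - ell f s x d k y (nv z)) * E (nv z) +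
        ell f s x d k y (π z) * (-(Real.exp η - 1) * E (π z)) := by
      simp only [Φ, he]; ring
    rw [e]
    refine (abs_add_le _ _).trans ?_
    rw [abs_mul, abs_mul, abs_mul, abs_neg, abs_of_pos (Real.exp_pos _ : 0 < E (nv z)),
      abs_of_nonneg hEp]
    have h4 : |ell f s x d k y (π z) - ell f s x d k y (nv z)| ≤ Lp * tol := by
      rw [abs_sub_comm]
      exact (abs_ell_sub_le hs hx d k hy.le hn hp).trans (mul_le_mul_of_nonneg_left hδ hLp)
    have b1 := mul_le_mul h4 h3 (Real.exp_pos _).le (mul_nonneg hLp ht0)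
    have b2 := mul_le_mul (abs_ell_le (s := s) hs hx d k hy.le hp)
      (mul_le_mul_of_nonneg_right (h2.trans (mul_le_mul_of_nonneg_left hη two_pos.le)) hEp)
      (by positivity) hB
    linarith
  have hmean : |∫ z, Φ (π z) ∂μ| ≤ (3 * ((k : ℝ) + 1) + tol * (3 * Lp + 2 * B * G)) * W := by
    have h1 : |∫ z, Φ (nv z) ∂μ| ≤ 3 * ((k : ℝ) + 1) * W := by
      rw [← integral_unitLaw hΦc.measurable]
      refine (abs_integral_ell_le hs hN d k hy).trans ?_
      rw [integral_unitLaw (F := fun u => Real.exp (ham f s x d u)) hEc.measurable, mul_comm (3 : ℝ),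
        mul_assoc]
      exact mul_le_mul_of_nonneg_left ((integral_mono_ae (hid E hEc).2 ((hid E hEc).1.const_mul 3)
        (hpt.mono fun z hz => hz.2.1)).trans_eq (integral_const_mul 3 _)) (by positivity)
    have h2 : |∫ z, Φ (π z) ∂μ - ∫ z, Φ (nv z) ∂μ| ≤ tol * (3 * Lp + 2 * B * G) * W := by
      rw [← integral_sub (hid Φ hΦc).1 (hid Φ hΦc).2, ← integral_const_mul]
      exact (norm_integral_le_integral_norm _).trans (integral_mono_ae
        ((hid Φ hΦc).1.sub (hid Φ hΦc).2).norm ((hid E hEc).1.const_mul _)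
        (hpt.mono fun z hz => hz.1))
    linarith [abs_sub_abs_le_abs_sub (∫ z, Φ (π z) ∂μ) (∫ z, Φ (nv z) ∂μ)]
  have havg : |(∑ σ, Φ (P.u σ)) / P.K - ∫ z, Φ (π z) ∂μ| ≤ tol * (B * W) := by
    have hp := hcmp (fun v => max (Φ v) 0) (by fun_prop) fun v => le_max_right _ _
    have hm := hcmp (fun v => max (-Φ v) 0) (by fun_prop) fun v => le_max_right _ _
    have hip := (hid (fun v => max (Φ v) 0) (by fun_prop)).1
    have him := (hid (fun v => max (-Φ v) 0) (by fun_prop)).1
    have e : ∀ v, max (Φ v) 0 - max (-Φ v) 0 = Φ v := fun v => max_zero_sub_max_neg_zero_eq_self _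
    have e1 : ∫ z, Φ (π z) ∂μ =
        ∫ z, max (Φ (π z)) 0 ∂μ - ∫ z, max (-Φ (π z)) 0 ∂μ := by
      rw [← integral_sub hip him]; simp only [e]
    have e2 : (∑ σ, Φ (P.u σ)) / P.K =
        (∑ σ, max (Φ (P.u σ)) 0) / P.K - (∑ σ, max (-Φ (P.u σ)) 0) / P.K := by
      rw [← sub_div, ← Finset.sum_sub_distrib]; simp only [e]
    have hb : tol * (∫ z, max (Φ (π z)) 0 ∂μ + ∫ z, max (-Φ (π z)) 0 ∂μ) ≤ tol * (B * W) := by
      refine mul_le_mul_of_nonneg_left ?_ ht0
      rw [← integral_add hip him, ← integral_const_mul]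
      exact integral_mono_ae (hip.add him) ((hid E hEc).1.const_mul B)
        (hpt.mono fun z hz => by
          show max (Φ (π z)) 0 + max (-Φ (π z)) 0 ≤ _
          rw [max_zero_add_max_neg_zero_eq_abs_self]; exact hz.2.2)
    rw [abs_le, e1, e2]
    constructor <;> linarith [hp.1, hp.2, hm.1, hm.2]
  have hK0 : (0 : ℝ) < P.K := by exact_mod_cast P.pos
  have h := (abs_sub_abs_le_abs_sub _ _).trans havg
  have hfin : |(∑ σ, Φ (P.u σ)) / P.K| ≤ pointBd A s tol d k * ((∑ σ, E (P.u σ)) / P.K) := by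
    have := mul_le_mul_of_nonneg_left hW
      (by positivity : 0 ≤ 3 * ((k : ℝ) + 1) + tol * (3 * Lp + 2 * B * G) + tol * B)
    simp only [pointBd]
    linarith
  rwa [abs_div, abs_of_pos hK0, ← mul_div_assoc, div_le_div_iff_of_pos_right hK0] at hfin

end Vale.Agent.P157.Parisi.Full.Spherical
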